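import Vale.Agent.P156.MathlibUsed

namespace Vale.Agent.P156

open Classical in
/-- The simple labelled `d`-regular graphs on the vertex set `Fin n`. -/
noncomputable def regularGraphs (n d : ℕ) : Finset (SimpleGraph (Fin n)) :=
  Finset.univ.filter (fun G => G.IsRegularOfDegree d)

open Classical in
/-- The probability of the event `A` for `G` uniform in `regularGraphs n d`. -/
noncomputable def unifProb (n d : ℕ) (A : SimpleGraph (Fin n) → Prop) : ℝ :=
  (((regularGraphs n d).filter A).card : ℝ) / ((regularGraphs n d).card : ℝ)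

open Classical in
/-- The adjacency matrix (zero-one, unnormalized). -/
noncomputable def adj {n : ℕ} (G : SimpleGraph (Fin n)) : Matrix (Fin n) (Fin n) ℝ :=
  G.adjMatrix ℝ

theorem adj_isHermitian {n : ℕ} (G : SimpleGraph (Fin n)) : (adj G).IsHermitian := by
  classical
  exact G.isHermitian_adjMatrix ℝ

/-- The eigenvalues of the adjacency matrix, with multiplicity. -/
noncomputable def eig {n : ℕ} (G : SimpleGraph (Fin n)) : Fin n → ℝ :=
  (adj_isHermitian G).eigenvalues

/-- The Kesten-McKay density. -/
noncomputable def rho (d : ℕ) (t : ℝ) : ℝ :=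
  d * Real.sqrt (4 * (d - 1) - t ^ 2) / (2 * Real.pi * (d ^ 2 - t ^ 2))

/-- The unfolded eigenvalue point measure at energy `E`. -/
noncomputable def Xi (n d : ℕ) (E : ℝ) (G : SimpleGraph (Fin n)) : MeasureTheory.Measure ℝ :=
  ∑ i, MeasureTheory.Measure.dirac (n * rho d E * (eig G i - E))

end Vale.Agent.P156
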