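import Mathlib.Algebra.Order.Archimedean.Real.Hom
import Mathlib.Algebra.Order.Chebyshev
import Mathlib.Algebra.Ring.IsFormallyReal
import Mathlib.Analysis.Complex.ExponentialBounds
import Mathlib.Analysis.InnerProductSpace.OfNorm
import Mathlib.Analysis.SpecialFunctions.Complex.CircleAddChar
import Mathlib.Combinatorics.Graph.Basic
import Mathlib.Combinatorics.SimpleGraph.LapMatrix
import Mathlib.Data.Int.Star
import Mathlib.Data.Nat.Prime.Factorial
import Mathlib.GroupTheory.Perm.DomMulAct
import Mathlib.LinearAlgebra.Matrix.Gershgorin
import Mathlib.LinearAlgebra.Matrix.Swap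
import Mathlib.NumberTheory.NumberField.InfinitePlace.Embeddings
import Mathlib.RingTheory.PicardGroup
import Mathlib.RingTheory.SimpleRing.Principal
import Mathlib.Tactic
import Mathlib.Topology.Separation.CompletelyRegular

/-! The part of Mathlib that the development of this folder uses. -/
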